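import Vale.Agent.P284.H625.NS.Spec
import Mathlib.Analysis.Calculus.FDeriv.Symmetric
import Mathlib.Analysis.Calculus.IteratedDeriv.Lemmas
import Mathlib.Analysis.Analytic.Order
import Mathlib.Analysis.Analytic.Uniqueness
import Mathlib.Analysis.Complex.Basic

/-!
# P284 (helper573), module NS: vertical nullity (`VStmt`)
-/

open scoped Topology
open Filter

noncomputable section

namespace Vale.Agent.P284.H573.NS

open Vale.Agent.P272.K Vale.Agent.P284.H625

variable {E : Type*} [NormedAddCommGroup E] [NormedSpace ℂ E]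
  {G : Type*} [NormedAddCommGroup G] [NormedSpace ℂ G] [CompleteSpace G]

/-- the derivative in the direction `η` -/
def Dv (η : E) (g : E → G) : E → G := fun x => fderiv ℂ g x η

lemma Dv_an {η : E} {g : E → G} {x : E} (h : AnalyticAt ℂ g x) : AnalyticAt ℂ (Dv η g) x :=
  (ContinuousLinearMap.apply ℂ G η).analyticAt _ |>.fun_comp h.fderiv

lemma Dv_iter_an {η : E} {g : E → G} {x : E} (h : AnalyticAt ℂ g x) (k : ℕ) :
    AnalyticAt ℂ ((Dv η)^[k] g) x := by
  induction k generalizing g with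
  | zero => exact h
  | succ k ih => exact ih (Dv_an h)

omit [CompleteSpace G] in
lemma Dv_congr {η : E} {g g' : E → G} {x : E} (h : g =ᶠ[𝓝 x] g') : Dv η g =ᶠ[𝓝 x] Dv η g' := by
  filter_upwards [h.eventuallyEq_nhds] with y hy
  rw [Dv, Dv, hy.fderiv_eq]

omit [CompleteSpace G] in
lemma Dv_iter_congr {η : E} {g g' : E → G} {x : E} (h : g =ᶠ[𝓝 x] g') (k : ℕ) :
    (Dv η)^[k] g =ᶠ[𝓝 x] (Dv η)^[k] g' := by
  induction k generalizing g g' with
  | zero => exact h
  | succ k ih => exact ih (Dv_congr h)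

lemma Dv_comm {η ζ : E} {g : E → G} {x : E} (h : AnalyticAt ℂ g x) :
    Dv η (Dv ζ g) =ᶠ[𝓝 x] Dv ζ (Dv η g) := by
  filter_upwards [h.eventually_analyticAt] with y hy
  have h1 : IsSymmSndFDerivAt ℂ g y := ContDiffAt.isSymmSndFDerivAt_of_omega hy.contDiffAt
  have h2 : ∀ a : E, fderiv ℂ (fun z => fderiv ℂ g z a) y = (fderiv ℂ (fderiv ℂ g) y).flip a := by
    intro a
    have := (ContinuousLinearMap.apply ℂ G a).hasFDerivAt.comp y
      hy.fderiv.differentiableAt.hasFDerivAt
    rw [show (fun z => fderiv ℂ g z a) = (ContinuousLinearMap.apply ℂ G a) ∘ (fderiv ℂ g) from rfl,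
      this.fderiv]
    rfl
  show fderiv ℂ (fun z => fderiv ℂ g z ζ) y η = fderiv ℂ (fun z => fderiv ℂ g z η) y ζ
  rw [h2, h2]
  exact h1.eq η ζ

lemma Dv_iter_comm {η ζ : E} {g : E → G} {x : E} (h : AnalyticAt ℂ g x) (k : ℕ) :
    (Dv η)^[k] (Dv ζ g) =ᶠ[𝓝 x] Dv ζ ((Dv η)^[k] g) := by
  induction k generalizing g with
  | zero => exact EventuallyEq.rfl
  | succ k ih =>
    rw [Function.iterate_succ_apply, Function.iterate_succ_apply]
    exact (Dv_iter_congr (Dv_comm h) k).trans (ih (Dv_an h))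

/-- the derivatives along a line -/
lemma iteratedDeriv_line {g : E → G} {x η : E} (h : AnalyticAt ℂ g x) (k : ℕ) :
    iteratedDeriv k (fun s : ℂ => g (x + s • η)) 0 = (Dv η)^[k] g x := by
  induction k generalizing g with
  | zero => simp
  | succ k ih =>
    rw [iteratedDeriv_succ', Function.iterate_succ_apply, ← ih (Dv_an h)]
    refine Filter.EventuallyEq.iteratedDeriv_eq k ?_
    have hc : ContinuousAt (fun s : ℂ => x + s • η) 0 := by fun_prop
    have h1 : ∀ᶠ s in 𝓝 (0 : ℂ), AnalyticAt ℂ g (x + s • η) :=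
      hc.eventually (by simpa using h.eventually_analyticAt)
    filter_upwards [h1] with s hs
    have h2 : HasDerivAt (fun s : ℂ => x + s • η) η s := by
      simpa using ((hasDerivAt_id s).smul_const η).const_add x
    exact (hs.differentiableAt.hasFDerivAt.comp_hasDerivAt s h2).deriv

/-- If all derivatives of `g` in the direction `η` vanish at `x`, then `g` vanishes at `x + η`, inside
a ball where `g` is analytic. -/
lemma zero_on_line {g : E → G} {x η : E} {ρ : ℝ} (hx : ‖η‖ < ρ)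
    (h : ∀ y ∈ Metric.ball x ρ, AnalyticAt ℂ g y) (h0 : ∀ k, (Dv η)^[k] g x = 0) :
    g (x + η) = 0 := by
  set f : ℂ → G := fun s => g (x + s • η) with hf
  set D : Set ℂ := {s : ℂ | ‖s • η‖ < ρ} with hD
  have hmem : ∀ s ∈ D, x + s • η ∈ Metric.ball x ρ := by
    intro s hs
    rw [mem_ball_iff_norm, add_sub_cancel_left]
    exact hs
  have hDc : IsPreconnected D := by
    have : Convex ℝ D := by
      intro a ha b hb u v hu hv huv
      show ‖(u • a + v • b) • η‖ < ρ
      have h1 : (u • a + v • b) • η = u • (a • η) + v • (b • η) := by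
        rw [add_smul, smul_assoc, smul_assoc]
      have h2 : ‖u • (a • η) + v • (b • η)‖ ≤ u * ‖a • η‖ + v * ‖b • η‖ := by
        refine (norm_add_le _ _).trans ?_
        rw [norm_smul u (a • η), norm_smul v (b • η), Real.norm_of_nonneg hu,
          Real.norm_of_nonneg hv]
      rw [h1]
      refine lt_of_le_of_lt h2 ?_
      have h3 : ‖a • η‖ < ρ := ha
      have h4 : ‖b • η‖ < ρ := hb
      rcases eq_or_lt_of_le hu with hu0 | hu0
      · have hv1 : v = 1 := by linarith
        rw [← hu0, hv1]; linarith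
      · have : u * ‖a • η‖ < u * ρ := mul_lt_mul_of_pos_left h3 hu0
        have : v * ‖b • η‖ ≤ v * ρ := mul_le_mul_of_nonneg_left h4.le hv
        have : u * ρ + v * ρ = ρ := by rw [← add_mul, huv, one_mul]
        linarith
    exact this.isPreconnected
  have hfa : AnalyticOnNhd ℂ f D := by
    intro s hs
    refine AnalyticAt.fun_comp (g := g) (f := fun s : ℂ => x + s • η) (h _ (hmem s hs)) ?_
    exact analyticAt_const.add (analyticAt_id.smul analyticAt_const)
  have hρ : 0 < ρ := lt_of_le_of_lt (norm_nonneg _) hx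
  have h0D : (0 : ℂ) ∈ D := by simp [hD, hρ]
  have h1D : (1 : ℂ) ∈ D := by simpa [hD] using hx
  have hx0 : AnalyticAt ℂ g x := h x (Metric.mem_ball_self hρ)
  have hord : analyticOrderAt f 0 = ⊤ := by
    by_contra hne
    obtain ⟨m, hm⟩ := ENat.ne_top_iff_exists.1 hne
    have h1 := (natCast_le_analyticOrderAt_iff_iteratedDeriv_eq_zero (n := m + 1)
      (hfa 0 h0D)).2 (fun i _ => by rw [hf, iteratedDeriv_line hx0]; exact h0 i)
    rw [← hm] at h1
    have h2 : m + 1 ≤ m := by exact_mod_cast h1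
    omega
  have hev : f =ᶠ[𝓝 0] 0 := analyticOrderAt_eq_top.1 hord
  have := hfa.eqOn_zero_of_preconnected_of_eventuallyEq_zero hDc h0D hev h1D
  simpa [hf] using this

end Vale.Agent.P284.H573.NS

namespace Vale.Agent.P284.H573

open Vale.Agent.P272.K Vale.Agent.P284.H625 NS

/-- finite linear combinations of functions of `𝓕`, as germs -/
def Sp {d : ℕ} (𝓕 : Set (Cm d → ℂ)) (x₀ : Cm d) (g : Cm d → ℂ) : Prop :=
  ∃ (m : ℕ) (c : Fin m → ℂ) (f : Fin m → Cm d → ℂ), (∀ i, f i ∈ 𝓕) ∧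
    g =ᶠ[𝓝 x₀] fun x => ∑ i, c i * f i x

section
variable {d : ℕ} {𝓕 : Set (Cm d → ℂ)} {x₀ : Cm d}

lemma fderiv_sum_mul {m : ℕ} {c : Fin m → ℂ} {f : Fin m → Cm d → ℂ} {x : Cm d}
    (hf : ∀ i, AnalyticAt ℂ (f i) x) (η : Cm d) :
    fderiv ℂ (fun x => ∑ i, c i * f i x) x η = ∑ i, c i * fderiv ℂ (f i) x η := by
  rw [fderiv_fun_sum (fun i _ => ((hf i).differentiableAt.const_mul (c i)))]
  rw [sum_apply]
  refine Finset.sum_congr rfl fun i _ => ?_
  rw [fderiv_const_mul (hf i).differentiableAt]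
  rfl

lemma Sp.zero_deriv {g : Cm d → ℂ} (hg : Sp 𝓕 x₀ g) (ha : ∀ f ∈ 𝓕, AnalyticAt ℂ f x₀)
    {ζ : Cm d} (hζ : ∀ g ∈ 𝓕, fderiv ℂ g x₀ ζ = 0) : Dv ζ g x₀ = 0 := by
  obtain ⟨m, c, f, hf, he⟩ := hg
  rw [Dv, he.fderiv_eq, fderiv_sum_mul (fun i => ha _ (hf i))]
  exact Finset.sum_eq_zero fun i _ => by rw [hζ _ (hf i), mul_zero]

lemma Sp.dv {g : Cm d → ℂ} {k : ℕ} {e : Fin k → Cm d} (hg : Sp 𝓕 x₀ g)
    (ha : ∀ f ∈ 𝓕, AnalyticAt ℂ f x₀)
    (hd : ∀ f ∈ 𝓕, ∀ a, (fun x => fderiv ℂ f x (e a)) ∈ 𝓕) (u : Fin k → ℂ) :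
    Sp 𝓕 x₀ (Dv (∑ a, u a • e a) g) := by
  obtain ⟨m, c, f, hf, he⟩ := hg
  refine ⟨m * k, fun i => c (finProdFinEquiv.symm i).1 * u (finProdFinEquiv.symm i).2,
    fun i x => fderiv ℂ (f (finProdFinEquiv.symm i).1) x (e (finProdFinEquiv.symm i).2),
    fun i => hd _ (hf _) _, ?_⟩
  have h1 : ∀ᶠ x in 𝓝 x₀, ∀ i, AnalyticAt ℂ (f i) x :=
    eventually_all.2 fun i => (ha _ (hf i)).eventually_analyticAt
  filter_upwards [he.eventuallyEq_nhds, h1] with x hx hx'
  rw [Dv, hx.fderiv_eq, fderiv_sum_mul hx', finProdFinEquiv.symm.sum_comp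
    (fun p : Fin m × Fin k => c p.1 * u p.2 * fderiv ℂ (f p.1) x (e p.2)),
    Fintype.sum_prod_type]
  refine Finset.sum_congr rfl fun i _ => ?_
  rw [map_sum, Finset.mul_sum]
  refine Finset.sum_congr rfl fun a _ => ?_
  rw [map_smul, smul_eq_mul]
  ring

end

lemma vert_eq {q r : ℕ} {ζ : Cm (q + r)} (h : tq ζ = 0) :
    ζ = ∑ a : Fin r, ζ (Fin.natAdd q a) • (ey a : Cm (q + r)) := by
  funext i
  rw [Finset.sum_apply]
  refine Fin.addCases (fun j => ?_) (fun b => ?_) i
  · have h1 : ζ (Fin.castAdd r j) = 0 := congrFun h j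
    rw [h1]
    symm
    refine Finset.sum_eq_zero fun a _ => ?_
    have : (Fin.castAdd r j : Fin (q + r)) ≠ Fin.natAdd q a := by
      intro h2
      have := congrArg Fin.val h2
      simp at this
      omega
    simp [ey, this]
  · rw [Finset.sum_eq_single b]
    · simp [ey]
    · intro a _ ha
      have : (Fin.natAdd q b : Fin (q + r)) ≠ Fin.natAdd q a := by
        intro h2
        exact ha ((Fin.natAdd_injective r q) h2).symm
      simp [ey, this]
    · simp

theorem vStmt : VStmt := by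
  intro q r W _ _ _ x₀ 𝓕 F ha hd hF hc ζ hζt hζ
  obtain ⟨ρ, hρ, hball⟩ := Metric.eventually_nhds_iff_ball.1 hF.eventually_analyticAt
  filter_upwards [Metric.ball_mem_nhds x₀ hρ] with x hx hxt
  set η : Cm (q + r) := x - x₀ with hη
  have hηt : tq η = 0 := by
    funext j
    have := congrFun hxt j
    simp only [tq] at this
    simp [tq, hη, this]
  have hxη : x₀ + η = x := by rw [hη]; abel
  have key : ∀ h : W, inner ℂ h (fderiv ℂ F x ζ - fderiv ℂ F x₀ ζ) = 0 := by
    intro h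
    set f : Cm (q + r) → ℂ := fun x => inner ℂ h (F x) with hfdef
    have hfa : ∀ y ∈ Metric.ball x₀ ρ, AnalyticAt ℂ f y := fun y hy =>
      ((innerSL ℂ h).analyticAt _).fun_comp (hball y hy)
    have hdf : ∀ y ∈ Metric.ball x₀ ρ, ∀ u, fderiv ℂ f y u = inner ℂ h (fderiv ℂ F y u) := by
      intro y hy u
      have h1 := ((innerSL ℂ h).hasFDerivAt).comp y (hball y hy).differentiableAt.hasFDerivAt
      have h2 : fderiv ℂ f y = (innerSL ℂ h).comp (fderiv ℂ F y) := h1.fderiv
      rw [h2]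
      rfl
    have hfa0 := hfa x₀ (Metric.mem_ball_self hρ)
    have hbev : ∀ᶠ y in 𝓝 x₀, y ∈ Metric.ball x₀ ρ := Metric.ball_mem_nhds x₀ hρ
    -- the derivative of `f` in a vertical direction belongs to the span of `𝓕`
    have hS : Sp 𝓕 x₀ (Dv η f) := by
      refine ⟨r, fun a => η (Fin.natAdd q a), fun a x => inner ℂ h (fderiv ℂ F x (ey a)),
        fun a => hc a h, ?_⟩
      filter_upwards [hbev] with y hy
      rw [Dv, hdf y hy]
      conv_lhs => rw [vert_eq hηt]
      rw [map_sum, inner_sum]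
      refine Finset.sum_congr rfl fun a _ => ?_
      rw [map_smul, inner_smul_right]
    have hSk : ∀ k, Sp 𝓕 x₀ ((Dv η)^[k + 1] f) := by
      intro k
      induction k with
      | zero => exact hS
      | succ k ih =>
        rw [Function.iterate_succ_apply']
        have := ih.dv ha hd (fun a => η (Fin.natAdd q a))
        rwa [← vert_eq hηt] at this
    set g : Cm (q + r) → ℂ := fun y => Dv ζ f y - Dv ζ f x₀ with hg
    have hg0 : ∀ k, (Dv η)^[k] g x₀ = 0 := by
      intro k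
      cases k with
      | zero => simp [hg]
      | succ k =>
        have h1 : Dv η g = Dv η (Dv ζ f) := by
          funext y
          simp only [Dv, hg]
          rw [fderiv_sub_const]
          rfl
        rw [Function.iterate_succ_apply, h1, ← Function.iterate_succ_apply,
          (Dv_iter_comm hfa0 (k + 1)).eq_of_nhds]
        exact (hSk k).zero_deriv ha hζ
    have h3 := zero_on_line (g := g) (x := x₀) (η := η) (ρ := ρ)
      (by rwa [mem_ball_iff_norm] at hx)
      (fun y hy => (Dv_an (hfa y hy)).sub analyticAt_const) hg0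
    rw [hxη] at h3
    simp only [hg, Dv] at h3
    rw [hdf x hx, hdf x₀ (Metric.mem_ball_self hρ), ← inner_sub_right] at h3
    exact h3
  have := key (fderiv ℂ F x ζ - fderiv ℂ F x₀ ζ)
  rw [inner_self_eq_zero] at this
  exact sub_eq_zero.1 this

end Vale.Agent.P284.H573
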